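import Vale.Agent.P150.H357.Main
import Vale.Agent.P146.H827.LawG

/-!
# P150: stretched-exponentially slow mixing at every low temperature, from the moment law
-/

open MeasureTheory ProbabilityTheory Filter Topology

namespace Vale.Agent.P150.H827

open Vale.Agent.P150.H357
open Vale.Agent.P146.H827 (Mom)

variable {n : ℕ} {β : ℝ}

/-- Markov's inequality for the bad mass, with high probability. -/
theorem whp_bad (hβ : 0 < β) {θ : ℝ} (hθ : θ ≤ 1 / 7) (hM : Mom β θ) {b c e : ℝ} (hb0 : 0 ≤ b)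
    (hc : 0 < c) (hbc : b + c < θ) (he : 5 * (b + c) < 2 * e) :
    WHP (fun n => {g | ex (skJ β g) (fun _ => 0) (fun τ => if Real.exp (-((n : ℝ) ^ b)) <
      ex (skJ β g) (fun _ => 0) (fun x => if |ov τ x / n| ≤ (n : ℝ) ^ (-e) then 1 else 0)
        then 1 else 0) ≤ (n : ℝ) ^ (-c)}) := by
  obtain ⟨t, ht0, ht1, ht2⟩ : ∃ t : ℝ, 0 < t ∧ b + (c + t) < θ ∧ 5 * (b + (c + t)) < 2 * e := by
    refine ⟨min ((θ - (b + c)) / 2) ((2 * e - 5 * (b + c)) / 10), ?_, ?_, ?_⟩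
    · exact lt_min (by linarith) (by linarith)
    · have := min_le_left ((θ - (b + c)) / 2) ((2 * e - 5 * (b + c)) / 10)
      linarith
    · have := min_le_right ((θ - (b + c)) / 2) ((2 * e - 5 * (b + c)) / 10)
      linarith
  have h := P146.H827.law hβ hθ hM hb0 (show 0 < c + t by linarith) ht1 ht2
  have h1 : ∀ᶠ i in F.whpF, (fun i : F.Idx0 => ex (skJ β i.2) (fun _ => 0)
      (fun τ => if Real.exp (-((i.1 : ℝ) ^ b)) <
      ex (skJ β i.2) (fun _ => 0)
        (fun x => if |ov τ x / i.1| ≤ (i.1 : ℝ) ^ (-e) then 1 else 0)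
        then 1 else 0) ≤ (i.1 : ℝ) ^ (-c)) i := by
    refine F.eventually_whpF_of_real (fun n => 300 * (n : ℝ) ^ (-t)) ?_ ?_
    · have t1 : Tendsto (fun n : ℕ => (n : ℝ) ^ (-t)) atTop (𝓝 0) :=
        (tendsto_rpow_neg_atTop ht0).comp tendsto_natCast_atTop_atTop
      simpa using t1.const_mul 300
    · filter_upwards [h, eventually_ge_atTop 1] with n hn hn1
      have hn0 : (0 : ℝ) < n := by
        have : (1 : ℝ) ≤ n := by exact_mod_cast hn1
        linarith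
      obtain ⟨f, hf⟩ : ∃ f : (Pairs n → ℝ) → ℝ, f = fun g => ∑ σ : Fin n → ℤˣ,
        P146.H605.gibbs n β g σ * (if Real.exp (-((n : ℝ) ^ b)) <
          P146.H357.p2 n β ((n : ℝ) ^ (-e)) g σ then (1 : ℝ) else 0) := ⟨_, rfl⟩
      have hI : Integrable f (disorder n) := by
        rw [hf]
        exact P146.H357.int_gs (f := fun σ g => if Real.exp (-((n : ℝ) ^ b)) <
          P146.H357.p2 n β ((n : ℝ) ^ (-e)) g σ then (1 : ℝ) else 0)
          (fun σ => P146.H357.meas1 _ _ σ) fun σ g => by split_ifs <;> norm_num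
      have hf0 : 0 ≤ᵐ[disorder n] f := Filter.Eventually.of_forall fun g => by
        rw [hf]
        exact Finset.sum_nonneg fun σ _ => mul_nonneg (P146.H605.Gauge.gibbs_nonneg β g σ)
          (by split_ifs <;> norm_num)
      have hM := mul_meas_ge_le_integral_of_nonneg hf0 hI ((n : ℝ) ^ (-c))
      have hi : ∫ g, f g ∂(disorder n) ≤ 300 * (n : ℝ) ^ (-(c + t)) := by
        rw [hf]
        exact hn
      have hsub : {g : Pairs n → ℝ | ¬ (ex (skJ β g) (fun _ => 0)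
          (fun τ => if Real.exp (-((n : ℝ) ^ b)) < ex (skJ β g) (fun _ => 0)
            (fun x => if |ov τ x / n| ≤ (n : ℝ) ^ (-e) then 1 else 0)
            then 1 else 0) ≤ (n : ℝ) ^ (-c))} ⊆ {g | (n : ℝ) ^ (-c) ≤ f g} := by
        intro g hg
        have hg' := not_le.1 hg
        rw [← bad_eq (β := β) g] at hg'
        show (n : ℝ) ^ (-c) ≤ f g
        rw [hf]
        exact hg'.le
      have : IsProbabilityMeasure (disorder n) := by unfold disorder; infer_instance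
      have h2 := (measureReal_mono (μ := disorder n) hsub)
      have h3 : (n : ℝ) ^ (-c) * (disorder n).real {g | (n : ℝ) ^ (-c) ≤ f g} ≤
          (n : ℝ) ^ (-c) * (300 * (n : ℝ) ^ (-t)) := by
        refine (hM.trans hi).trans (le_of_eq ?_)
        have : (n : ℝ) ^ (-(c + t)) = (n : ℝ) ^ (-c) * (n : ℝ) ^ (-t) := by
          rw [← Real.rpow_add hn0]
          congr 1
          ring
        rw [this]
        ring
      exact h2.trans (le_of_mul_le_mul_left h3 (Real.rpow_pos_of_pos hn0 _))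
  exact F.eventually_whpF.1 h1

/-- **Slow mixing at every low temperature**, from the sharp moment law for exponents below
`θ ≤ 1 / 7`. -/
theorem slow (hβ : 0 < β) {θ : ℝ} (hθ : θ ≤ 1 / 7) (hM : Mom β θ) {a c e : ℝ} (ha : 0 ≤ a)
    (hc : 0 < c) (hac : a + c < θ) (he : 5 * (a + c) < 2 * e) : WHP (fun n => {g |
    gap (skJ β g) (fun _ => 0) ≤ Real.exp (-((n : ℝ) ^ a)) ∧
    Real.log 2 * Real.exp ((n : ℝ) ^ a) ≤ tmix (skJ β g) (fun _ => 0) ∧
    (∀ t, 0 ≤ t → ∃ x, Real.exp (-(Real.exp (-((n : ℝ) ^ a)) * t)) / 2 ≤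
      tvDist (skJ β g) (fun _ => 0) t x) ∧
    (∀ t, 0 ≤ t → t ≤ Real.exp ((n : ℝ) ^ a) → ex (skJ β g) (fun _ => 0)
      (fun x => if tvDist (skJ β g) (fun _ => 0) t x < 1 / 2 - Real.exp (-((n : ℝ) ^ a))
        then 1 else 0) ≤ Real.exp (-((n : ℝ) ^ a))) ∧
    ex (skJ β g) (fun _ => 0) (fun y => if Real.exp (-((n : ℝ) ^ a)) <
      ex (skJ β g) (fun _ => 0)
        (fun x => if |(∑ i, sp (x i) * sp (y i)) / n| ≤ (n : ℝ) ^ (-e) then 1 else 0)
        then 1 else 0) ≤ (n : ℝ) ^ (-c)}) := by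
  -- a slightly larger exponent `b`, with the threshold `n ^ (-1/2)`
  obtain ⟨b, hbd⟩ : ∃ b, b = a + c / 2 := ⟨_, rfl⟩
  have hab : a < b := by rw [hbd]; linarith
  have hb0 : 0 < b := by linarith
  have hW := whp_bad (c := c / 2) (e := 1 / 2) hβ hθ hM hb0.le (by linarith)
    (by rw [hbd]; linarith) (by rw [hbd]; linarith)
  have hW' := whp_bad (c := c) (e := e) hβ hθ hM ha hc hac he
  refine MainThm.whp_mono (MainThm.whp_inter hW hW') ?_
  have tt : ∀ e : ℝ, 0 < e → Tendsto (fun n : ℕ => (n : ℝ) ^ e) atTop atTop := fun e he =>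
    (tendsto_rpow_atTop he).comp tendsto_natCast_atTop_atTop
  have t1 : Tendsto (fun n : ℕ => (n : ℝ) ^ (-(c / 2))) atTop (𝓝 0) :=
    (tendsto_rpow_neg_atTop (by linarith)).comp tendsto_natCast_atTop_atTop
  filter_upwards [eventually_ge_atTop 1, t1.eventually (gt_mem_nhds zero_lt_one),
    sizes hab hb0, (tt b hb0).eventually_ge_atTop 1,
    (tt (1 / 2) (by norm_num)).eventually_ge_atTop 2] with n hn h1 h2 h3 h4
  rintro g ⟨hg, hg'⟩
  have hn0 : (0 : ℝ) < n := by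
    have : (1 : ℝ) ≤ n := by exact_mod_cast hn
    linarith
  have hn1 : (1 : ℝ) ≤ n := by exact_mod_cast hn
  have hε : 2 ≤ (n : ℝ) ^ (-(1 / 2) : ℝ) * n := by
    have e1 : (n : ℝ) ^ (-(1 / 2) : ℝ) * n = (n : ℝ) ^ (1 / 2 : ℝ) := by
      nth_rewrite 2 [← Real.rpow_one (n : ℝ)]
      rw [← Real.rpow_add hn0]
      norm_num
    rw [e1]
    exact h4
  have hA : Real.exp (-((n : ℝ) ^ b)) ≤ 1 / 2 := by
    rw [Real.exp_neg, one_div]
    have : (2 : ℝ) ≤ Real.exp ((n : ℝ) ^ b) := by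
      have := Real.add_one_le_exp ((n : ℝ) ^ b)
      linarith
    gcongr
  have hbad : ex (skJ β g) (fun _ => 0) (fun τ => if Real.exp (-((n : ℝ) ^ b)) <
      ex (skJ β g) (fun _ => 0) (fun x => if |ov τ x / n| ≤ (n : ℝ) ^ (-(1 / 2) : ℝ) then 1 else 0)
        then 1 else 0) < 1 := lt_of_le_of_lt hg h1
  obtain ⟨k1, k2⟩ := slow_of_bad hn g hε hA hbad
  obtain ⟨E, hE⟩ : ∃ E, E = Real.exp ((n : ℝ) ^ a) := ⟨_, rfl⟩
  have hE0 : 0 < E := by rw [hE]; exact Real.exp_pos _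
  have hE1 : 1 ≤ E := by
    rw [hE]
    exact Real.one_le_exp (Real.rpow_nonneg hn0.le _)
  have hEi : Real.exp (-((n : ℝ) ^ a)) = E⁻¹ := by rw [hE, Real.exp_neg]
  have hE3 : Real.exp (3 * (n : ℝ) ^ a) = E ^ 3 := by
    rw [hE, ← Real.exp_nat_mul]
    norm_num
  rw [hE3] at h2
  have hAi : Real.exp (-((n : ℝ) ^ b)) = (Real.exp ((n : ℝ) ^ b))⁻¹ := Real.exp_neg _
  have hA2 : 8 * n * E ^ 3 * Real.exp (-((n : ℝ) ^ b)) ≤ 1 := by
    rw [hAi, ← div_eq_mul_inv, div_le_one (Real.exp_pos _)]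
    exact h2
  have hA0 : 0 < Real.exp (-((n : ℝ) ^ b)) := Real.exp_pos _
  -- the gap
  have hgap : gap (skJ β g) (fun _ => 0) ≤ Real.exp (-((n : ℝ) ^ a)) := by
    refine k1.trans ?_
    rw [hEi, le_inv_comm₀ (by positivity) hE0]
    rw [← one_div, le_div_iff₀ (by positivity)]
    refine le_trans ?_ hA2
    have hE2 : E ≤ E ^ 3 := by nlinarith [mul_nonneg hE0.le (sub_nonneg.2 hE1)]
    calc E * (8 * n * Real.exp (-((n : ℝ) ^ b))) = 8 * n * E * Real.exp (-((n : ℝ) ^ b)) := by ring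
      _ ≤ 8 * n * E ^ 3 * Real.exp (-((n : ℝ) ^ b)) := by gcongr
  refine ⟨hgap, ?_, fun t ht => H185.exists_tv_ge hn (Asm.skJ_symm β g) (fun _ => 0) hgap t ht,
    fun t ht0 ht => ?_, hg'⟩
  · have h5 := tmix_ge hn (Asm.skJ_symm β g) (fun _ => 0) (Real.exp_pos (-((n : ℝ) ^ a))) hgap
    rwa [Real.exp_neg, div_inv_eq_mul] at h5
  · refine (k2 t (Real.exp (-((n : ℝ) ^ a))) ht0 (Real.exp_pos _)).trans ?_
    rw [← hE] at ht
    rw [hEi]
    have h6 : t * n / E⁻¹ ≤ E * n * E := by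
      rw [div_inv_eq_mul]
      gcongr
    have h7 : 2 * (t * n / E⁻¹) + 1 ≤ 8 * n * E ^ 2 := by
      have h8 : 1 ≤ n * E ^ 2 := by
        have : 1 ≤ E ^ 2 := one_le_pow₀ hE1
        nlinarith
      nlinarith
    calc (2 * (t * n / E⁻¹) + 1) * Real.exp (-((n : ℝ) ^ b))
        ≤ 8 * n * E ^ 2 * Real.exp (-((n : ℝ) ^ b)) := by gcongr
      _ = (8 * n * E ^ 3 * Real.exp (-((n : ℝ) ^ b))) * E⁻¹ := by
          field_simp
      _ ≤ 1 * E⁻¹ := by gcongr
      _ = E⁻¹ := one_mul _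

end Vale.Agent.P150.H827
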