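import Vale.Agent.P146.H329.End17
import Vale.Agent.P150.H827.Slow

/-!
# P150: the moment law for exponents below `2 / 17`
-/

open MeasureTheory ProbabilityTheory Filter Topology

namespace Vale.Agent.P150.H827

/-- the sharp moment law at every low temperature, for exponents below `2 / 17` -/
theorem mom17 {β : ℝ} (hβ : 1 < β) : P146.H827.Mom β (2 / 17) := by
  obtain ⟨Λ, -, h⟩ := P146.H329.final17
  obtain ⟨h0, p, κ₀, C, -, -, h3, -⟩ := h β hβ
  refine ⟨Λ β, p, h0, fun ε hε a ha => ?_⟩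
  obtain ⟨δ, hδ, hev⟩ := h3 ε hε a ha
  exact ⟨δ, hδ, hev.mono fun n hn => hn.1⟩

end Vale.Agent.P150.H827
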